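import Vale.Agent.P096.III.Reduce.Bicomm
import Vale.Agent.P082.Normal.Setting
import Vale.Agent.P078.General.Singular

/-!
# P096: the reduction to separable spaces
-/

namespace Vale.Agent.P096.III.Reduce

open scoped InnerProductSpace Topology
open Filter
open Vale.Agent.P082 (Alg)
open Vale.Agent.P082.Central

universe u

variable {H : Type u} [NormedAddCommGroup H] [InnerProductSpace ℂ H] [CompleteSpace H]

/-- The linear map exists, with these constants, on separable spaces. -/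
def SepLinear.{v} (C ε₀ : ℝ) : Prop :=
  ∀ (H : Type v) [NormedAddCommGroup H] [InnerProductSpace ℂ H] [CompleteSpace H],
    TopologicalSpace.SeparableSpace H → ∀ (M N : VonNeumannAlgebra H) (ε : ℝ),
      0 ≤ ε → ε ≤ ε₀ → Near M N ε → NearLinear M N (C * ε)

/-! ## Closed countably generated subalgebras -/

section stage

variable (D : Set ℂ) (f g : (H →L[ℂ] H) → H →L[ℂ] H)

/-- One step of the closing up of two sets of operators and one of vectors. -/
def grow (p : Set (H →L[ℂ] H) × Set (H →L[ℂ] H) × Set H) :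
    Set (H →L[ℂ] H) × Set (H →L[ℂ] H) × Set H :=
  (p.1 ∪ star '' p.1 ∪ Set.image2 (· * ·) p.1 p.1 ∪ Set.image2 (· + ·) p.1 p.1 ∪
      Set.image2 (fun (c : ℂ) a => c • a) D p.1 ∪ g '' p.2.1 ∪ {1},
    p.2.1 ∪ star '' p.2.1 ∪ Set.image2 (· * ·) p.2.1 p.2.1 ∪ Set.image2 (· + ·) p.2.1 p.2.1 ∪
      Set.image2 (fun (c : ℂ) a => c • a) D p.2.1 ∪ f '' p.1 ∪ {1},
    p.2.2 ∪ Set.image2 (fun (a : H →L[ℂ] H) v => a v) (p.1 ∪ p.2.1) p.2.2)

/-- The stages. -/
def stage (A : Set (H →L[ℂ] H)) (V : Set H) : ℕ →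
    Set (H →L[ℂ] H) × Set (H →L[ℂ] H) × Set H
  | 0 => (A, ∅, V)
  | n + 1 => grow D f g (stage A V n)

variable {D f g} {A : Set (H →L[ℂ] H)} {V : Set H}

theorem stage_mono : Monotone fun n => stage D f g A V n := by
  refine monotone_nat_of_le_succ fun n => ?_
  refine ⟨fun x hx => ?_, fun x hx => ?_, fun x hx => ?_⟩
  · exact .inl (.inl (.inl (.inl (.inl (.inl hx)))))
  · exact .inl (.inl (.inl (.inl (.inl (.inl hx)))))
  · exact .inl hx

theorem stage_countable (hD : D.Countable) (hA : A.Countable) (hV : V.Countable) :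
    ∀ n, (stage D f g A V n).1.Countable ∧ (stage D f g A V n).2.1.Countable ∧
      (stage D f g A V n).2.2.Countable
  | 0 => ⟨hA, Set.countable_empty, hV⟩
  | n + 1 => by
    obtain ⟨h1, h2, h3⟩ := stage_countable hD hA hV n
    exact ⟨((((((h1.union (h1.image _)).union (h1.image2 h1 _)).union (h1.image2 h1 _)).union
        (hD.image2 h1 _)).union (h2.image _)).union (Set.countable_singleton 1)),
      ((((((h2.union (h2.image _)).union (h2.image2 h2 _)).union (h2.image2 h2 _)).union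
        (hD.image2 h2 _)).union (h1.image _)).union (Set.countable_singleton 1)),
      h3.union ((h1.union h2).image2 h3 _)⟩

end stage

/-- A norm closed star subalgebra from a set closed under the operations. -/
noncomputable def closedAlg (A : Set (H →L[ℂ] H)) (D : Set ℂ) (hD : Dense D) (h1 : (1 : H →L[ℂ] H) ∈ A)
    (hs : ∀ a ∈ A, star a ∈ A) (hm : ∀ a ∈ A, ∀ b ∈ A, a * b ∈ A)
    (ha : ∀ a ∈ A, ∀ b ∈ A, a + b ∈ A) (hc : ∀ c ∈ D, ∀ a ∈ A, c • a ∈ A) :
    StarSubalgebra ℂ (H →L[ℂ] H) :=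
  have hsm : ∀ (c : ℂ), ∀ a ∈ closure A, c • a ∈ closure A := fun c a hmem =>
    map_mem_closure₂ (continuous_fst.smul continuous_snd :
      Continuous fun q : ℂ × (H →L[ℂ] H) => q.1 • q.2) (hD c) hmem hc
  { carrier := closure A
    mul_mem' := fun {a b} x y => map_mem_closure₂
      (continuous_fst.mul continuous_snd :
        Continuous fun q : (H →L[ℂ] H) × (H →L[ℂ] H) => q.1 * q.2) x y hm
    one_mem' := subset_closure h1
    add_mem' := fun {a b} x y => map_mem_closure₂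
      (continuous_fst.add continuous_snd :
        Continuous fun q : (H →L[ℂ] H) × (H →L[ℂ] H) => q.1 + q.2) x y ha
    zero_mem' := by
      have h := hsm 0 1 (subset_closure h1)
      rwa [zero_smul] at h
    algebraMap_mem' := fun r => by
      rw [Algebra.algebraMap_eq_smul_one]
      exact hsm r 1 (subset_closure h1)
    star_mem' := fun {a} x => map_mem_closure continuous_star x hs }

/-- The countably generated closed algebras and their separable reducing space. -/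
theorem exists_algs {M N : VonNeumannAlgebra H} {ε : ℝ} (h0 : 0 ≤ ε) (hn : Near M N ε)
    (S : Finset (Alg M)) (F : Finset H) :
    ∃ (p : H →L[ℂ] H) (A B : StarSubalgebra ℂ (H →L[ℂ] H)),
      IsClosed (A : Set (H →L[ℂ] H)) ∧ IsClosed (B : Set (H →L[ℂ] H)) ∧
      (∀ x ∈ S, (x : H →L[ℂ] H) ∈ A) ∧ (∀ b ∈ B, b ∈ N) ∧ (∀ v ∈ F, p v = v) ∧
      IsStarProjection p ∧ TopologicalSpace.SeparableSpace (cSpace p) ∧
      (∀ a, (a ∈ A ∨ a ∈ B) → Commute p a) ∧
      (∀ a ∈ A, ‖a‖ ≤ 4 → ∃ b ∈ B, ‖a - b‖ ≤ 5 * ε) ∧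
      ∀ b ∈ B, ‖b‖ ≤ 4 → ∃ a ∈ A, ‖b - a‖ ≤ 5 * ε := by
  classical
  obtain ⟨D, hDc, hDd⟩ := TopologicalSpace.exists_countable_dense ℂ
  have hlift : ∀ (P Q : VonNeumannAlgebra H), BallNear P Q ε → ∀ x ∈ P,
      ∃ y ∈ Q, ‖y‖ ≤ ‖x‖ ∧ ‖x - y‖ ≤ ε * ‖x‖ := by
    intro P Q hPQ x hx
    by_cases hx0 : ‖x‖ = 0
    · exact ⟨0, zero_mem Q, by simp [hx0], by simp [norm_eq_zero.1 hx0]⟩
    have e : ‖((‖x‖⁻¹ : ℝ) : ℂ)‖ = ‖x‖⁻¹ := by simp
    obtain ⟨y, hy, hy1, hxy⟩ := hPQ _ (P.toStarSubalgebra.smul_mem hx ((‖x‖⁻¹ : ℝ) : ℂ))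
      (by rw [norm_smul, e, inv_mul_cancel₀ hx0])
    refine ⟨(‖x‖ : ℂ) • y, Q.toStarSubalgebra.smul_mem hy _, ?_, ?_⟩
    · rw [norm_smul, Complex.norm_real, norm_norm]
      exact mul_le_of_le_one_right (norm_nonneg _) hy1
    · have e2 : x - (‖x‖ : ℂ) • y = (‖x‖ : ℂ) • (((‖x‖⁻¹ : ℝ) : ℂ) • x - y) := by
        rw [smul_sub, smul_smul, ← Complex.ofReal_mul, mul_inv_cancel₀ hx0, Complex.ofReal_one,
          one_smul]
      rw [e2, norm_smul, Complex.norm_real, norm_norm, mul_comm ε]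
      exact mul_le_mul_of_nonneg_left hxy (norm_nonneg _)
  choose! f hfN hfn hfd using hlift M N hn.1
  choose! g hgM hgn hgd using hlift N M hn.2
  set st := stage D f g ((fun x : Alg M => (x : H →L[ℂ] H)) '' (S : Set (Alg M))) (F : Set H)
    with hst
  have hcnt := stage_countable (f := f) (g := g) hDc
    (S.countable_toSet.image fun x : Alg M => (x : H →L[ℂ] H)) F.countable_toSet
  have hsub : ∀ n, (∀ a ∈ (st n).1, a ∈ M) ∧ ∀ b ∈ (st n).2.1, b ∈ N := by
    intro n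
    induction n with
    | zero => exact ⟨fun a ⟨x, _, hx⟩ => hx ▸ x.2, fun b hb => hb.elim⟩
    | succ n ih =>
      obtain ⟨i1, i2⟩ := ih
      refine ⟨?_, ?_⟩
      · rintro a ((((((ha | ⟨b, hb, rfl⟩) | ⟨b, hb, c, hc, rfl⟩) | ⟨b, hb, c, hc, rfl⟩) |
          ⟨c, -, b, hb, rfl⟩) | ⟨b, hb, rfl⟩) | rfl)
        exacts [i1 a ha, star_mem (i1 b hb), mul_mem (i1 b hb) (i1 c hc),
          add_mem (i1 b hb) (i1 c hc), M.toStarSubalgebra.smul_mem (i1 b hb) c, hgM b (i2 b hb),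
          one_mem M]
      · rintro a ((((((ha | ⟨b, hb, rfl⟩) | ⟨b, hb, c, hc, rfl⟩) | ⟨b, hb, c, hc, rfl⟩) |
          ⟨c, -, b, hb, rfl⟩) | ⟨b, hb, rfl⟩) | rfl)
        exacts [i2 a ha, star_mem (i2 b hb), mul_mem (i2 b hb) (i2 c hc),
          add_mem (i2 b hb) (i2 c hc), N.toStarSubalgebra.smul_mem (i2 b hb) c, hfN b (i1 b hb),
          one_mem N]
  set A₀ := ⋃ n, (st n).1 with hA₀
  set B₀ := ⋃ n, (st n).2.1 with hB₀
  have up : ∀ {m n : ℕ}, m ≤ n → st m ≤ st n := fun hmn => stage_mono hmn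
  let A : StarSubalgebra ℂ (H →L[ℂ] H) := closedAlg A₀ D hDd
    (Set.mem_iUnion.2 ⟨1, .inr rfl⟩)
    (fun a ha => by
      obtain ⟨n, hn⟩ := Set.mem_iUnion.1 ha
      exact Set.mem_iUnion.2 ⟨n + 1, .inl (.inl (.inl (.inl (.inl (.inr ⟨a, hn, rfl⟩)))))⟩)
    (fun a ha b hb => by
      obtain ⟨m, hm⟩ := Set.mem_iUnion.1 ha
      obtain ⟨n, hn⟩ := Set.mem_iUnion.1 hb
      exact Set.mem_iUnion.2 ⟨max m n + 1, .inl (.inl (.inl (.inl (.inr
        ⟨a, (up (le_max_left m n)).1 hm, b, (up (le_max_right m n)).1 hn, rfl⟩))))⟩)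
    (fun a ha b hb => by
      obtain ⟨m, hm⟩ := Set.mem_iUnion.1 ha
      obtain ⟨n, hn⟩ := Set.mem_iUnion.1 hb
      exact Set.mem_iUnion.2 ⟨max m n + 1, .inl (.inl (.inl (.inr
        ⟨a, (up (le_max_left m n)).1 hm, b, (up (le_max_right m n)).1 hn, rfl⟩)))⟩)
    (fun c hc a ha => by
      obtain ⟨n, hn⟩ := Set.mem_iUnion.1 ha
      exact Set.mem_iUnion.2 ⟨n + 1, .inl (.inl (.inr ⟨c, hc, a, hn, rfl⟩))⟩)
  let B : StarSubalgebra ℂ (H →L[ℂ] H) := closedAlg B₀ D hDd
    (Set.mem_iUnion.2 ⟨1, .inr rfl⟩)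
    (fun a ha => by
      obtain ⟨n, hn⟩ := Set.mem_iUnion.1 ha
      exact Set.mem_iUnion.2 ⟨n + 1, .inl (.inl (.inl (.inl (.inl (.inr ⟨a, hn, rfl⟩)))))⟩)
    (fun a ha b hb => by
      obtain ⟨m, hm⟩ := Set.mem_iUnion.1 ha
      obtain ⟨n, hn⟩ := Set.mem_iUnion.1 hb
      exact Set.mem_iUnion.2 ⟨max m n + 1, .inl (.inl (.inl (.inl (.inr
        ⟨a, (up (le_max_left m n)).2.1 hm, b, (up (le_max_right m n)).2.1 hn, rfl⟩))))⟩)
    (fun a ha b hb => by
      obtain ⟨m, hm⟩ := Set.mem_iUnion.1 ha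
      obtain ⟨n, hn⟩ := Set.mem_iUnion.1 hb
      exact Set.mem_iUnion.2 ⟨max m n + 1, .inl (.inl (.inl (.inr
        ⟨a, (up (le_max_left m n)).2.1 hm, b, (up (le_max_right m n)).2.1 hn, rfl⟩)))⟩)
    (fun c hc a ha => by
      obtain ⟨n, hn⟩ := Set.mem_iUnion.1 ha
      exact Set.mem_iUnion.2 ⟨n + 1, .inl (.inl (.inr ⟨c, hc, a, hn, rfl⟩))⟩)
  have hAM : ∀ a ∈ A, a ∈ M := fun a ha =>
    closure_minimal (fun x hx => by
      obtain ⟨n, hn⟩ := Set.mem_iUnion.1 hx
      exact (hsub n).1 x hn) (Vale.Agent.P082.Normal.isClosed_coe M) ha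
  have hBN : ∀ b ∈ B, b ∈ N := fun b hb =>
    closure_minimal (fun x hx => by
      obtain ⟨n, hn⟩ := Set.mem_iUnion.1 hx
      exact (hsub n).2 x hn) (Vale.Agent.P082.Normal.isClosed_coe N) hb
  -- lifts inside the countable sets
  have hfB : ∀ a ∈ A₀, f a ∈ B₀ := fun a ha => by
    obtain ⟨n, hn⟩ := Set.mem_iUnion.1 ha
    exact Set.mem_iUnion.2 ⟨n + 1, .inl (.inr ⟨a, hn, rfl⟩)⟩
  have hgA : ∀ b ∈ B₀, g b ∈ A₀ := fun b hb => by
    obtain ⟨n, hn⟩ := Set.mem_iUnion.1 hb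
    exact Set.mem_iUnion.2 ⟨n + 1, .inl (.inr ⟨b, hn, rfl⟩)⟩
  -- the reducing separable space
  set V₀ := ⋃ n, (st n).2.2 with hV₀
  set K := (Submodule.span ℂ V₀).topologicalClosure with hK
  have : CompleteSpace K := (Submodule.isClosed_topologicalClosure _).completeSpace_coe
  set p := K.starProjection with hp
  have hpp : IsStarProjection p := isStarProjection_starProjection
  have hinv₀ : ∀ a ∈ A₀ ∪ B₀, ∀ v ∈ K, a v ∈ K := by
    intro a ha v hv
    have h2 : Set.MapsTo a (Submodule.span ℂ V₀ : Set H) (Submodule.span ℂ V₀ : Set H) := by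
      intro w hw
      induction hw using Submodule.span_induction with
      | mem w hw =>
        obtain ⟨n, hn⟩ := Set.mem_iUnion.1 hw
        refine Submodule.subset_span ?_
        rcases ha with ha | ha
        · obtain ⟨m, hm⟩ := Set.mem_iUnion.1 ha
          exact Set.mem_iUnion.2 ⟨max m n + 1, .inr ⟨a, .inl ((up (le_max_left m n)).1 hm), w,
            (up (le_max_right m n)).2.2 hn, rfl⟩⟩
        · obtain ⟨m, hm⟩ := Set.mem_iUnion.1 ha
          exact Set.mem_iUnion.2 ⟨max m n + 1, .inr ⟨a, .inr ((up (le_max_left m n)).2.1 hm), w,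
            (up (le_max_right m n)).2.2 hn, rfl⟩⟩
      | zero => rw [map_zero]; exact zero_mem _
      | add a b _ _ ha hb => rw [map_add]; exact add_mem ha hb
      | smul c a _ ha => rw [map_smul]; exact Submodule.smul_mem _ c ha
    exact h2.closure a.continuous hv
  have hcomm : ∀ a, (a ∈ A ∨ a ∈ B) → Commute p a := by
    have key : ∀ a, (a ∈ A ∨ a ∈ B) → ∀ v ∈ K, a v ∈ K := by
      intro a ha v hv
      have hcl : IsClosed {T : H →L[ℂ] H | T v ∈ K} :=
        (Submodule.isClosed_topologicalClosure _).preimage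
          (ContinuousLinearMap.apply ℂ H v).continuous
      rcases ha with ha | ha
      · exact closure_minimal (fun x hx => hinv₀ x (.inl hx) v hv) hcl ha
      · exact closure_minimal (fun x hx => hinv₀ x (.inr hx) v hv) hcl ha
    intro a ha
    exact Vale.Agent.P078.General.commute_starProjection (key a ha)
      (key _ (ha.imp (fun h => star_mem h) (fun h => star_mem h)))
  have hsep : TopologicalSpace.SeparableSpace (cSpace p) := by
    have hs : TopologicalSpace.IsSeparable (K : Set H) :=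
      ((Set.countable_iUnion fun n => (hcnt n).2.2).isSeparable.span (R := ℂ)).closure
    have hs' : TopologicalSpace.IsSeparable (cSpace p : Set H) :=
      hs.mono fun v hv => Submodule.starProjection_eq_self_iff.1 (mem_cSpace.1 hv)
    exact hs'.separableSpace
  refine ⟨p, A, B, isClosed_closure, isClosed_closure,
    fun x hx => subset_closure (Set.mem_iUnion.2 ⟨0, x, hx, rfl⟩), hBN,
    fun v hv => Submodule.starProjection_eq_self_iff.2
      (subset_closure (Submodule.subset_span (Set.mem_iUnion.2 ⟨0, hv⟩))), hpp, hsep, hcomm,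
    fun a ha ha4 => ?_, fun b hb hb4 => ?_⟩
  · rcases h0.eq_or_lt with hε | hε
    · refine ⟨a, closure_mono ?_ (show a ∈ closure A₀ from ha), by simp [← hε]⟩
      intro x hx
      obtain ⟨n, hn⟩ := Set.mem_iUnion.1 hx
      have h2 := hfd x ((hsub n).1 x hn)
      rw [← hε, zero_mul, norm_le_zero_iff, sub_eq_zero] at h2
      rw [h2]
      exact hfB x hx
    obtain ⟨x, hx, hd⟩ := Metric.mem_closure_iff.1 (show a ∈ closure A₀ from ha)
      (min (1 / 4) (ε / 2)) (by positivity)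
    rw [dist_eq_norm] at hd
    obtain ⟨n, hn⟩ := Set.mem_iUnion.1 hx
    have h2 := hfd x ((hsub n).1 x hn)
    refine ⟨f x, subset_closure (hfB x hx), (norm_sub_le_norm_sub_add_norm_sub _ x _).trans ?_⟩
    have hx4 : ‖x‖ ≤ 4 + 1 / 4 := (norm_le_norm_add_norm_sub _ _).trans
      (add_le_add ha4 (hd.le.trans (min_le_left _ _)))
    have := mul_le_mul_of_nonneg_left hx4 h0
    have := hd.le.trans (min_le_right (1 / 4) (ε / 2))
    linarith
  · rcases h0.eq_or_lt with hε | hε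
    · refine ⟨b, closure_mono ?_ (show b ∈ closure B₀ from hb), by simp [← hε]⟩
      intro x hx
      obtain ⟨n, hn⟩ := Set.mem_iUnion.1 hx
      have h2 := hgd x ((hsub n).2 x hn)
      rw [← hε, zero_mul, norm_le_zero_iff, sub_eq_zero] at h2
      rw [h2]
      exact hgA x hx
    obtain ⟨x, hx, hd⟩ := Metric.mem_closure_iff.1 (show b ∈ closure B₀ from hb)
      (min (1 / 4) (ε / 2)) (by positivity)
    rw [dist_eq_norm] at hd
    obtain ⟨n, hn⟩ := Set.mem_iUnion.1 hx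
    have h2 := hgd x ((hsub n).2 x hn)
    refine ⟨g x, subset_closure (hgA x hx), (norm_sub_le_norm_sub_add_norm_sub _ x _).trans ?_⟩
    have hx4 : ‖x‖ ≤ 4 + 1 / 4 := (norm_le_norm_add_norm_sub _ _).trans
      (add_le_add hb4 (hd.le.trans (min_le_left _ _)))
    have := mul_le_mul_of_nonneg_left hx4 h0
    have := hd.le.trans (min_le_right (1 / 4) (ε / 2))
    linarith

/-- An element of an algebra on a reduced space, on the whole space. -/
noncomputable def outOf {p : H →L[ℂ] H} (hp : IsStarProjection p)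
    (P : VonNeumannAlgebra (cSpace p)) : Alg P →ₗ[ℂ] (H →L[ℂ] H) where
  toFun T := ext hp (T : cSpace p →L[ℂ] cSpace p)
  map_add' S T := ext_add hp (S : cSpace p →L[ℂ] cSpace p) (T : cSpace p →L[ℂ] cSpace p)
  map_smul' c T := ext_smul hp c (T : cSpace p →L[ℂ] cSpace p)

/-- What one finite piece gives: a linear map near the identity on a separable reducing space. -/
theorem exists_piece {C ε₀ : ℝ} (hC : 0 ≤ C) (h : SepLinear.{u} C ε₀) {M N : VonNeumannAlgebra H} {ε : ℝ}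
    (h0 : 0 ≤ ε) (h1 : 10 * ε ≤ ε₀) (hn : Near M N ε) (S : Finset (Alg M)) (F : Finset H) :
    ∃ (p : H →L[ℂ] H) (A : StarSubalgebra ℂ (H →L[ℂ] H)) (T : A →ₗ[ℂ] H →L[ℂ] H),
      (∀ x ∈ S, (x : H →L[ℂ] H) ∈ A) ∧ (∀ v ∈ F, p v = v) ∧ IsStarProjection p ∧
      (∀ a : A, ‖T a - p * (a : H →L[ℂ] H) * p‖ ≤ C * (10 * ε) * ‖(a : H →L[ℂ] H)‖) ∧
      (∀ a : A, p * T a = T a) ∧
      ∀ a : A, ∀ y ∈ N.commutant, p * y * p * T a = T a * (p * y * p) := by
  classical
  obtain ⟨p, A, B, hAc, hBc, hSA, hBN, hF, hpp, hsep, hcomm, hAB, hBA⟩ := exists_algs h0 hn S F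
  let : CStarAlgebra A := StarSubalgebra.cstarAlgebra A (h_closed := hAc)
  let : CStarAlgebra B := StarSubalgebra.cstarAlgebra B (h_closed := hBc)
  let mkRep : ∀ (E : StarSubalgebra ℂ (H →L[ℂ] H)), (∀ a ∈ E, Commute p a) →
      (E →⋆ₐ[ℂ] (cSpace p →L[ℂ] cSpace p)) := fun E hE =>
    { toFun := fun a => restr hpp (a : H →L[ℂ] H)
      map_one' := ContinuousLinearMap.ext fun v => Subtype.ext (by
        show p ((1 : H →L[ℂ] H) (v : H)) = _
        rw [one_apply_eq_self, apply_coe]; rfl)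
      map_mul' := fun a b => restr_mul hpp (hE _ a.2) (b : H →L[ℂ] H)
      map_zero' := ContinuousLinearMap.ext fun v => Subtype.ext (by
        show p ((0 : H →L[ℂ] H) (v : H)) = _
        rw [zero_apply, map_zero]; rfl)
      map_add' := fun a b => restr_add hpp (a : H →L[ℂ] H) (b : H →L[ℂ] H)
      commutes' := fun c => ContinuousLinearMap.ext fun v => Subtype.ext (by
        show p ((algebraMap ℂ (H →L[ℂ] H) c) (v : H)) = _
        rw [Algebra.algebraMap_eq_smul_one, Algebra.algebraMap_eq_smul_one, smul_apply,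
          one_apply_eq_self, map_smul, apply_coe]
        rfl)
      map_star' := fun a => (star_restr hpp (a : H →L[ℂ] H)).symm }
  let σA := mkRep A fun a ha => hcomm a (.inl ha)
  let σB := mkRep B fun a ha => hcomm a (.inr ha)
  set M₀ := gen (Set.range σA) with hM₀
  set N₀ := gen (Set.range σB) with hN₀
  have hsub' : ∀ x y : H →L[ℂ] H, restr hpp x - restr hpp y = restr hpp (x - y) := fun x y => by
    rw [eq_comm, eq_sub_iff_add_eq, ← restr_add, sub_add_cancel]
  have hliftA : ∀ a : A, ‖a‖ ≤ 4 → ∃ b ∈ N₀, ‖σA a - b‖ ≤ 5 * ε := fun a ha => by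
    obtain ⟨b, hb, hd⟩ := hAB a a.2 ha
    exact ⟨σB ⟨b, hb⟩, subset_gen ⟨_, rfl⟩,
      (hsub' a b).symm ▸ (norm_restr_le hpp _).trans hd⟩
  have hliftB : ∀ b : B, ‖b‖ ≤ 4 → ∃ a ∈ M₀, ‖σB b - a‖ ≤ 5 * ε := fun b hb => by
    obtain ⟨a, ha, hd⟩ := hBA b b.2 hb
    exact ⟨σA ⟨a, ha⟩, subset_gen ⟨_, rfl⟩,
      (hsub' b a).symm ▸ (norm_restr_le hpp _).trans hd⟩
  have hnear : Near M₀ N₀ (10 * ε) := by
    refine ⟨fun X hX hX1 => ?_, fun X hX hX1 => ?_⟩
    · obtain ⟨Y, hY, hY1, hd⟩ := exists_near_gen σA N₀ (by positivity) hliftA hX hX1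
      exact ⟨Y, hY, hY1, hd.trans_eq (by ring)⟩
    · obtain ⟨Y, hY, hY1, hd⟩ := exists_near_gen σB M₀ (by positivity) hliftB hX hX1
      exact ⟨Y, hY, hY1, hd.trans_eq (by ring)⟩
  obtain ⟨L, hL⟩ := h (cSpace p) hsep M₀ N₀ (10 * ε) (by positivity) h1 hnear
  let res : A →ₗ[ℂ] Alg M₀ :=
    { toFun := fun a => ⟨σA a, subset_gen ⟨a, rfl⟩⟩
      map_add' := fun a b => Subtype.ext (map_add σA a b)
      map_smul' := fun c a => Subtype.ext (map_smul σA c a) }
  refine ⟨p, A, (outOf hpp N₀).comp (L.comp res), hSA, hF, hpp,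
    fun a => ?_, fun a => ?_, fun a y hy => ?_⟩
  · have e : p * (a : H →L[ℂ] H) * p = ext hpp (σA a) := by
      refine ContinuousLinearMap.ext fun v => ?_
      rw [ext_apply]
      show _ = p ((a : H →L[ℂ] H) (p v))
      rw [mul_apply_eq_comp, mul_apply_eq_comp]
    show ‖ext hpp (L (res a) : cSpace p →L[ℂ] cSpace p) - _‖ ≤ _
    rw [e, show ext hpp (L (res a) : cSpace p →L[ℂ] cSpace p) - ext hpp (σA a) =
      ext hpp ((L (res a) : cSpace p →L[ℂ] cSpace p) - σA a) by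
      rw [eq_comm, eq_sub_iff_add_eq, ← ext_add, sub_add_cancel]]
    exact (norm_ext_le hpp _).trans ((hL (res a)).trans
      (mul_le_mul_of_nonneg_left (norm_restr_le hpp _) (by positivity)))
  · exact mul_ext hpp _
  · have hyB : ∀ b : B, Commute (σB b) (restr hpp y) := by
      intro b
      have hc := hcomm _ (.inr b.2)
      have hby := VonNeumannAlgebra.mem_commutant_iff.1 hy _ (hBN _ b.2)
      refine ContinuousLinearMap.ext fun v => Subtype.ext ?_
      show p ((b : H →L[ℂ] H) (p (y v))) = p (y (p ((b : H →L[ℂ] H) v)))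
      have e1 : ∀ w, (b : H →L[ℂ] H) (p w) = p ((b : H →L[ℂ] H) w) := fun w =>
        (congrArg (fun T : H →L[ℂ] H => T w) hc.eq).symm
      have e2 : ∀ w, (b : H →L[ℂ] H) (y w) = y ((b : H →L[ℂ] H) w) := fun w =>
        congrArg (fun T : H →L[ℂ] H => T w) hby
      rw [e1, e2, apply_apply hpp, ← e1 (v : H), apply_coe]
    have hc2 := commute_gen (L (res a)).2 (z := restr hpp y)
      (by rintro _ ⟨b, rfl⟩; exact hyB b) (by rintro _ ⟨b, rfl⟩; rw [← map_star]; exact hyB _)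
    show p * y * p * ext hpp (L (res a) : cSpace p →L[ℂ] cSpace p) =
      ext hpp (L (res a) : cSpace p →L[ℂ] cSpace p) * (p * y * p)
    have e : p * y * p = ext hpp (restr hpp y) := ContinuousLinearMap.ext fun v => by
      rw [ext_apply, coe_restr_apply, coe_toC, mul_apply_eq_comp, mul_apply_eq_comp]
    rw [e, ← ext_mul, ← ext_mul, hc2.eq]

/-- The linear map for every space, from separable ones. -/
theorem nearLinear_of_separable {C ε₀ : ℝ} (hC : 0 ≤ C) (h : SepLinear.{u} C ε₀)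
    {M N : VonNeumannAlgebra H} {ε : ℝ} (h0 : 0 ≤ ε) (h1 : 10 * ε ≤ ε₀) (hn : Near M N ε) :
    NearLinear M N (10 * C * ε) := by
  classical
  choose p A T hS hF hp hT hpT hy using fun i : Finset (Alg M) × Finset H =>
    exists_piece hC h h0 h1 hn i.1 i.2
  let Φ : Alg M → Finset (Alg M) × Finset H → H →L[ℂ] H := fun x i =>
    if hx : (x : H →L[ℂ] H) ∈ A i then T i ⟨_, hx⟩ else 0
  set K := C * (10 * ε) with hKd
  have hK : 0 ≤ K := by positivity
  have hb : ∀ x i, ‖Φ x i‖ ≤ (K + 1) * ‖x‖ := by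
    intro x i
    simp only [Φ]
    split
    · rename_i hx
      refine (norm_le_norm_sub_add _ (p i * (x : H →L[ℂ] H) * p i)).trans ?_
      rw [add_mul, one_mul]
      refine add_le_add (hT i ⟨_, hx⟩) ((norm_mul_le _ _).trans ?_)
      refine (mul_le_mul ((norm_mul_le _ _).trans (mul_le_mul (hp i).norm_le le_rfl
        (norm_nonneg _) zero_le_one)) (hp i).norm_le (norm_nonneg _) (by positivity)).trans
        (le_of_eq ?_)
      rw [one_mul, mul_one]
      rfl
    · rw [norm_zero]; positivity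
  let U : Ultrafilter (Finset (Alg M) × Finset H) := Ultrafilter.of atTop
  choose L hlim hLn using fun x : Alg M => Vale.Agent.P078.General.exists_wot_limit U (Φ x) (hb x)
  have hev : ∀ (s : Finset (Alg M)) (t : Finset H),
      ∀ᶠ i : Finset (Alg M) × Finset H in (U : Filter (Finset (Alg M) × Finset H)),
        s ⊆ i.1 ∧ t ⊆ i.2 := fun s t =>
    Ultrafilter.of_le atTop (eventually_ge_atTop (s, t))
  have heq : ∀ (x : Alg M) (i : Finset (Alg M) × Finset H), x ∈ i.1 → ∃ hx : (x : H →L[ℂ] H) ∈ A i, Φ x i = T i ⟨_, hx⟩ := fun x i hx =>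
    ⟨hS i x hx, dif_pos (hS i x hx)⟩
  have huniq : ∀ (x : Alg M) (S : H →L[ℂ] H),
      (∀ v w, Tendsto (fun i => ⟪Φ x i v, w⟫_ℂ) (U : Filter _) (𝓝 ⟪S v, w⟫_ℂ)) → L x = S :=
    fun x S hS => ContinuousLinearMap.ext fun v => ext_inner_right ℂ fun w =>
      tendsto_nhds_unique (hlim x v w) (hS v w)
  have hmem : ∀ x, L x ∈ N := by
    intro x
    rw [← VonNeumannAlgebra.commutant_commutant N, VonNeumannAlgebra.mem_commutant_iff]
    intro y hyN
    refine ContinuousLinearMap.ext fun v => ext_inner_right ℂ fun w => ?_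
    rw [mul_apply_eq_comp, mul_apply_eq_comp, ← ContinuousLinearMap.adjoint_inner_right y]
    refine tendsto_nhds_unique (hlim x v (ContinuousLinearMap.adjoint y w))
      ((hlim x (y v) w).congr' ?_)
    filter_upwards [hev {x} {v, w, y v}] with i hi
    obtain ⟨hx, he⟩ := heq x i (hi.1 (Finset.mem_singleton_self x))
    rw [he, ContinuousLinearMap.adjoint_inner_right]
    have hv := hF i v (hi.2 (by simp))
    have hw := hF i w (hi.2 (by simp))
    have hyv := hF i (y v) (hi.2 (by simp))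
    have h2 := congrArg (fun S : H →L[ℂ] H => ⟪S v, w⟫_ℂ) (hy i ⟨_, hx⟩ y hyN)
    simp only [mul_apply_eq_comp, hv, hyv] at h2
    rw [← h2, inner_z (hp i) (y (p i (T i ⟨_, hx⟩ v))) w, hw]
    exact congrArg (fun S : H →L[ℂ] H => ⟪y (S v), w⟫_ℂ) (hpT i ⟨_, hx⟩)
  refine ⟨{ toFun := fun x => ⟨L x, hmem x⟩
            map_add' := fun x z => Subtype.ext (huniq _ _ fun v w => by
              show Tendsto _ _ (𝓝 ⟪(L x + L z) v, w⟫_ℂ)
              rw [add_apply, inner_add_left]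
              refine ((hlim x v w).add (hlim z v w)).congr' ?_
              filter_upwards [hev {x, z, x + z} ∅] with i hi
              obtain ⟨hx, ex⟩ := heq x i (hi.1 (by simp))
              obtain ⟨hz, ez⟩ := heq z i (hi.1 (by simp))
              obtain ⟨hxz, exz⟩ := heq (x + z) i (hi.1 (by simp))
              rw [ex, ez, exz, ← inner_add_left, ← add_apply, ← map_add]
              rfl)
            map_smul' := fun c x => Subtype.ext (huniq _ _ fun v w => by
              show Tendsto _ _ (𝓝 ⟪(c • L x) v, w⟫_ℂ)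
              rw [smul_apply, inner_smul_left]
              refine ((hlim x v w).const_mul (starRingEnd ℂ c)).congr' ?_
              filter_upwards [hev {x, c • x} ∅] with i hi
              obtain ⟨hx, ex⟩ := heq x i (hi.1 (by simp))
              obtain ⟨hcx, ecx⟩ := heq (c • x) i (hi.1 (by simp))
              rw [ex, ecx, ← inner_smul_left, ← smul_apply, ← map_smul]
              rfl) }, fun x => ?_⟩
  show ‖L x - (x : H →L[ℂ] H)‖ ≤ 10 * C * ε * ‖x‖
  refine ContinuousLinearMap.opNorm_le_bound _ (by positivity) fun v => ?_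
  set w := (L x - (x : H →L[ℂ] H)) v
  have h2 : Tendsto (fun i => ⟪Φ x i v, w⟫_ℂ - ⟪(x : H →L[ℂ] H) v, w⟫_ℂ) (U : Filter _)
      (𝓝 ⟪w, w⟫_ℂ) := by
    rw [show ⟪w, w⟫_ℂ = ⟪L x v, w⟫_ℂ - ⟪(x : H →L[ℂ] H) v, w⟫_ℂ by rw [← inner_sub_left]; rfl]
    exact (hlim x v w).sub_const _
  have h4 : ‖⟪w, w⟫_ℂ‖ ≤ K * ‖x‖ * ‖v‖ * ‖w‖ := by
    refine le_of_tendsto h2.norm ?_
    filter_upwards [hev {x} {v, w}] with i hi
    obtain ⟨hx, he⟩ := heq x i (hi.1 (Finset.mem_singleton_self x))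
    have hv := hF i v (hi.2 (by simp))
    have hw := hF i w (hi.2 (by simp))
    have e : ⟪(x : H →L[ℂ] H) v, w⟫_ℂ = ⟪(p i * (x : H →L[ℂ] H) * p i) v, w⟫_ℂ := by
      rw [mul_apply_eq_comp, mul_apply_eq_comp, inner_z (hp i), hv, hw]
    rw [he, e, ← inner_sub_left, ← sub_apply]
    exact (norm_inner_le_norm _ _).trans (mul_le_mul_of_nonneg_right
      ((ContinuousLinearMap.le_opNorm _ v).trans
        (mul_le_mul_of_nonneg_right (hT i ⟨_, hx⟩) (norm_nonneg _))) (norm_nonneg _))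
  rw [inner_self_eq_norm_sq_to_K, norm_pow, RCLike.norm_ofReal, abs_norm, pow_two] at h4
  rw [show 10 * C * ε * ‖x‖ = K * ‖x‖ by rw [hKd]; ring]
  rcases (norm_nonneg w).eq_or_lt with h5 | h5
  · rw [← h5]; positivity
  · exact le_of_mul_le_mul_right h4 h5

end Vale.Agent.P096.III.Reduce
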