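import Vale.Agent.P096.Iface
import Vale.Agent.P082.Central.Corner
import Vale.Agent.P104.R12.Density
import Vale.Agent.P078.General.Weak

/-!
# P096: the algebra generated by a restricted C⋆-algebra, and its unit ball
-/

namespace Vale.Agent.P096.III.Reduce

open scoped InnerProductSpace Topology
open Filter
open Vale.Agent.P082.Central
open Vale.Agent.P078.General (exists_wot_limit)

universe u

variable {H : Type u} [NormedAddCommGroup H] [InnerProductSpace ℂ H] [CompleteSpace H]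

/-- The algebra generated by a set. -/
noncomputable def gen (S : Set (H →L[ℂ] H)) : VonNeumannAlgebra H where
  toStarSubalgebra := StarSubalgebra.centralizer ℂ
    (StarSubalgebra.centralizer ℂ S : Set (H →L[ℂ] H))
  centralizer_centralizer' := Set.centralizer_centralizer_centralizer _

theorem subset_gen {S : Set (H →L[ℂ] H)} {x : H →L[ℂ] H} (hx : x ∈ S) : x ∈ gen S := by
  change x ∈ StarSubalgebra.centralizer ℂ _
  rw [StarSubalgebra.mem_centralizer_iff]
  intro y hy
  rw [SetLike.mem_coe] at hy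
  have h := fun z (hz : z ∈ StarSubalgebra.centralizer ℂ S) =>
    ((StarSubalgebra.mem_centralizer_iff ℂ).1 hz x hx).1
  exact ⟨(h y hy).symm, (h _ (star_mem hy)).symm⟩

theorem commute_gen {S : Set (H →L[ℂ] H)} {x z : H →L[ℂ] H} (hx : x ∈ gen S)
    (hz : ∀ s ∈ S, Commute s z) (hz' : ∀ s ∈ S, Commute (star s) z) : Commute x z := by
  change x ∈ StarSubalgebra.centralizer ℂ _ at hx
  rw [StarSubalgebra.mem_centralizer_iff] at hx
  refine (hx z ?_).1.symm
  rw [SetLike.mem_coe, StarSubalgebra.mem_centralizer_iff]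
  exact fun s hs => ⟨(hz s hs).eq, (hz' s hs).eq⟩

/-- Scaling back into the unit ball. -/
theorem exists_scaled {B : VonNeumannAlgebra H} {X T : H →L[ℂ] H} (hT : T ∈ B) {c : ℝ}
    (hc : 0 ≤ c) (hX : ‖X‖ ≤ 1) (h : ‖X - T‖ ≤ c) :
    ∃ Y ∈ B, ‖Y‖ ≤ 1 ∧ ‖X - Y‖ ≤ 2 * c := by
  set a := (1 + c)⁻¹ with ha
  have ha0 : 0 ≤ a := by positivity
  have ha1 : a ≤ 1 := inv_le_one_of_one_le₀ (by linarith)
  have hT1 : ‖T‖ ≤ 1 + c := (norm_le_norm_add_norm_sub _ _).trans (add_le_add hX h)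
  refine ⟨(a : ℂ) • T, B.toStarSubalgebra.smul_mem hT _, ?_, ?_⟩
  · rw [norm_smul, Complex.norm_real, Real.norm_eq_abs, abs_of_nonneg ha0]
    exact (mul_le_mul_of_nonneg_left hT1 ha0).trans_eq (inv_mul_cancel₀ (by linarith))
  · have e : X - (a : ℂ) • T = (X - T) + ((1 - a : ℝ) : ℂ) • T := by
      push_cast
      rw [sub_smul, one_smul]
      abel
    rw [e]
    refine (norm_add_le _ _).trans ?_
    rw [norm_smul, Complex.norm_real, Real.norm_eq_abs, abs_of_nonneg (by linarith)]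
    have h2 : (1 - a) * (1 + c) = c := by
      rw [sub_mul, ha, inv_mul_cancel₀ (by linarith)]; ring
    have := mul_le_mul_of_nonneg_left hT1 (show 0 ≤ 1 - a by linarith)
    linarith

/-- An element of the ball of the generated algebra is near any algebra that is near the ball of
radius four of the generators, strongly approximated. -/
theorem exists_near_gen {A : Type*} [CStarAlgebra A] (σ : A →⋆ₐ[ℂ] (H →L[ℂ] H))
    (B : VonNeumannAlgebra H) {c : ℝ} (hc : 0 ≤ c)
    (hσ : ∀ a : A, ‖a‖ ≤ 4 → ∃ b ∈ B, ‖σ a - b‖ ≤ c)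
    {X : H →L[ℂ] H} (hX : X ∈ gen (Set.range σ)) (hX1 : ‖X‖ ≤ 1) :
    ∃ Y ∈ B, ‖Y‖ ≤ 1 ∧ ‖X - Y‖ ≤ 2 * c := by
  classical
  have hbic : ∀ T ∈ gen (Set.range σ), Vale.Agent.P104.R12.InBicomm σ T := fun T hT z hz =>
    commute_gen hT (by rintro _ ⟨a, rfl⟩; exact hz a)
      (by rintro _ ⟨a, rfl⟩; rw [← map_star]; exact hz _)
  set R := (4 : ℂ)⁻¹ • (X + star X) with hR
  set S := (-Complex.I / 4) • (X - star X) with hS
  have hRsa : IsSelfAdjoint R := IsSelfAdjoint.smul (by simp) (IsSelfAdjoint.add_star_self X)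
  have hSsa : IsSelfAdjoint S := by
    rw [hS, IsSelfAdjoint, star_smul, star_sub, star_star, ← neg_sub X (star X), smul_neg,
      ← neg_smul, Complex.star_def]
    congr 1
    rw [map_div₀, map_neg, Complex.conj_I, map_ofNat]
    ring
  have hRn : ‖R‖ ≤ 1 / 2 := by
    rw [hR, norm_smul, norm_inv, Complex.norm_ofNat]
    have := norm_add_le X (star X)
    rw [norm_star] at this
    linarith
  have hSn : ‖S‖ ≤ 1 / 2 := by
    rw [hS, norm_smul, norm_div, norm_neg, Complex.norm_I, Complex.norm_ofNat]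
    have := norm_sub_le X (star X)
    rw [norm_star] at this
    linarith
  have hXe : X = (2 : ℂ) • R + (2 * Complex.I) • S := by
    rw [hR, hS, smul_smul, smul_smul, show (2 * Complex.I) * (-Complex.I / 4) = (2 : ℂ)⁻¹ by
      linear_combination (-(2 : ℂ)⁻¹) * Complex.I_mul_I]
    module
  have hRm : R ∈ gen (Set.range σ) :=
    (gen _).toStarSubalgebra.smul_mem (add_mem hX (star_mem hX)) _
  have hSm : S ∈ gen (Set.range σ) :=
    (gen _).toStarSubalgebra.smul_mem (sub_mem hX (star_mem hX)) _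
  have key : ∀ i : Finset H × ℕ, ∃ a : A, ∃ b ∈ B, ‖σ a - b‖ ≤ c ∧
      ∀ v ∈ i.1, ‖(σ a - X) v‖ ≤ 4 / ((i.2 : ℝ) + 1) := by
    intro i
    obtain ⟨a₁, ha₁, hd₁⟩ := Vale.Agent.P104.R12.exists_ball_approx (hbic R hRm) hRsa hRn
      (fun k => ((i.1.equivFin.symm k : i.1) : H)) (η := 1 / ((i.2 : ℝ) + 1)) (by positivity)
    obtain ⟨a₂, ha₂, hd₂⟩ := Vale.Agent.P104.R12.exists_ball_approx (hbic S hSm) hSsa hSn
      (fun k => ((i.1.equivFin.symm k : i.1) : H)) (η := 1 / ((i.2 : ℝ) + 1)) (by positivity)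
    set a := (2 : ℂ) • a₁ + (2 * Complex.I) • a₂ with ha
    have han : ‖a‖ ≤ 4 := by
      refine (norm_add_le _ _).trans ?_
      rw [norm_smul, norm_smul, norm_mul, Complex.norm_ofNat, Complex.norm_I]
      linarith
    obtain ⟨b, hb, hab⟩ := hσ a han
    refine ⟨a, b, hb, hab, fun v hv => ?_⟩
    have e : σ a - X = (2 : ℂ) • (σ a₁ - R) + (2 * Complex.I) • (σ a₂ - S) := by
      rw [ha, map_add, map_smul, map_smul, hXe, smul_sub, smul_sub]
      abel
    have h1 := hd₁ (i.1.equivFin ⟨v, hv⟩)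
    have h2 := hd₂ (i.1.equivFin ⟨v, hv⟩)
    simp only [Equiv.symm_apply_apply] at h1 h2
    rw [e, add_apply, smul_apply, smul_apply]
    refine (norm_add_le _ _).trans ?_
    rw [norm_smul, norm_smul, norm_mul, Complex.norm_ofNat, Complex.norm_I]
    calc 2 * ‖(σ a₁ - R) v‖ + 2 * 1 * ‖(σ a₂ - S) v‖
        ≤ 2 * (1 / ((i.2 : ℝ) + 1)) + 2 * 1 * (1 / ((i.2 : ℝ) + 1)) := by gcongr
      _ = 4 / ((i.2 : ℝ) + 1) := by ring
  choose a b hb hab hav using key
  have hσn : ∀ i, ‖b i - σ (a i)‖ ≤ c := fun i => by rw [norm_sub_rev]; exact hab i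
  let U : Ultrafilter (Finset H × ℕ) := Ultrafilter.of atTop
  obtain ⟨D, hD, hDn⟩ := exists_wot_limit U (fun i => b i - σ (a i)) hσn
  have hσX : ∀ v, Tendsto (fun i => σ (a i) v) (U : Filter _) (𝓝 (X v)) := by
    intro v
    refine Tendsto.mono_left (x := atTop) ?_ (Ultrafilter.of_le atTop)
    rw [Metric.tendsto_nhds]
    intro e he
    obtain ⟨m, hm⟩ := exists_nat_one_div_lt (show 0 < e / 4 by positivity)
    rw [eventually_atTop]
    refine ⟨({v}, m), fun i hi => ?_⟩
    rw [dist_eq_norm, ← sub_apply]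
    refine lt_of_le_of_lt (hav i v (Finset.singleton_subset_iff.1 hi.1)) ?_
    calc 4 / ((i.2 : ℝ) + 1) ≤ 4 / ((m : ℝ) + 1) := by
          gcongr
          exact_mod_cast hi.2
      _ = 4 * (1 / ((m : ℝ) + 1)) := by ring
      _ < 4 * (e / 4) := by gcongr
      _ = e := by ring
  have hlim : ∀ v w, Tendsto (fun i => ⟪b i v, w⟫_ℂ) (U : Filter _) (𝓝 ⟪(X + D) v, w⟫_ℂ) := by
    intro v w
    have h1 := ((hσX v).inner (𝕜 := ℂ) (tendsto_const_nhds (x := w))).add (hD v w)
    rw [← inner_add_left] at h1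
    refine h1.congr fun i => ?_
    rw [← inner_add_left, sub_apply, add_sub_cancel]
  have hmem : X + D ∈ B := by
    rw [← VonNeumannAlgebra.commutant_commutant B, VonNeumannAlgebra.mem_commutant_iff]
    intro y hy
    refine ContinuousLinearMap.ext fun v => ext_inner_right ℂ fun w => ?_
    rw [mul_apply_eq_comp, mul_apply_eq_comp, ← ContinuousLinearMap.adjoint_inner_right y]
    refine tendsto_nhds_unique (hlim v (ContinuousLinearMap.adjoint y w))
      ((hlim (y v) w).congr fun i => ?_)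
    rw [ContinuousLinearMap.adjoint_inner_right, ← mul_apply_eq_comp (b i) y,
      ← mul_apply_eq_comp y (b i), VonNeumannAlgebra.mem_commutant_iff.1 hy _ (hb i)]
  exact exists_scaled hmem hc hX1 (by rwa [sub_add_cancel_left, norm_neg])

end Vale.Agent.P096.III.Reduce
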