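import Vale.Agent.P096.III.Reduce.Sep
import Vale.Agent.P096.Reduce.Amp
import Vale.Agent.P096.Reduce.Corner
import Vale.Agent.P096.Linear.Main
import Vale.Agent.P132.Iface
import Vale.Agent.P078.General.Singular

/-!
# P096: the cut to a cyclic separating vector
-/

namespace Vale.Agent.P096.III.Reduce

open scoped InnerProductSpace Topology
open Filter
open Vale.Agent.P082 (Alg)
open Vale.Agent.P082.Central
open Vale.Agent.P082.Scope

universe u

variable {H : Type u} [NormedAddCommGroup H] [InnerProductSpace ℂ H] [CompleteSpace H]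

/-- The linear map exists, with these constants, when `M` has a cyclic separating vector. -/
def CSLinear.{v} (C ε₀ : ℝ) : Prop :=
  ∀ (H : Type v) [NormedAddCommGroup H] [InnerProductSpace ℂ H] [CompleteSpace H]
    [TopologicalSpace.SeparableSpace H] (M N : VonNeumannAlgebra H) (Ω : H),
      Vale.Agent.P132.IsCS M Ω → ∀ ε : ℝ, 0 < ε → ε ≤ ε₀ → Near M N ε →
        NearLinear M N (C * ε)

variable {p : H →L[ℂ] H}

/-- The restriction of an algebra to a reducing space. -/
noncomputable def onSpace (hp : IsStarProjection p) (P : VonNeumannAlgebra H)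
    (hP : p ∈ P.commutant) : Alg P →⋆ₐ[ℂ] (cSpace p →L[ℂ] cSpace p) where
  toFun a := restr hp (a : H →L[ℂ] H)
  map_one' := ContinuousLinearMap.ext fun v => Subtype.ext (by
    show p ((1 : H →L[ℂ] H) (v : H)) = _
    rw [one_apply_eq_self, apply_coe]; rfl)
  map_mul' a b := restr_mul hp
    (show Commute p (a : H →L[ℂ] H) from (VonNeumannAlgebra.mem_commutant_iff.1 hP _ a.2).symm)
    (b : H →L[ℂ] H)
  map_zero' := ContinuousLinearMap.ext fun v => Subtype.ext (by
    show p ((0 : H →L[ℂ] H) (v : H)) = _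
    rw [zero_apply, map_zero]; rfl)
  map_add' a b := restr_add hp (a : H →L[ℂ] H) (b : H →L[ℂ] H)
  commutes' c := ContinuousLinearMap.ext fun v => Subtype.ext (by
    show p ((algebraMap ℂ (H →L[ℂ] H) c) (v : H)) = _
    rw [Algebra.algebraMap_eq_smul_one, Algebra.algebraMap_eq_smul_one, smul_apply,
      one_apply_eq_self, map_smul, apply_coe]
    rfl)
  map_star' a := (star_restr hp (a : H →L[ℂ] H)).symm

theorem onSpace_val (hp : IsStarProjection p) {P : VonNeumannAlgebra H} (hP : p ∈ P.commutant)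
    (a : Alg P) : onSpace hp P hP a = restr hp (a : H →L[ℂ] H) := rfl

/-- Self-adjoint elements of the generated algebra come from `P`. -/
theorem exists_preimage_sa (hp : IsStarProjection p) {P : VonNeumannAlgebra H}
    (hP : p ∈ P.commutant) {T : cSpace p →L[ℂ] cSpace p}
    (hT : T ∈ gen (Set.range (onSpace hp P hP))) (hs : IsSelfAdjoint T) (hn : ‖T‖ ≤ 1 / 2) :
    ∃ y : Alg P, onSpace hp P hP y = T := by
  classical
  have hbic : Vale.Agent.P104.R12.InBicomm (onSpace hp P hP) T := fun z hz =>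
    commute_gen hT (by rintro _ ⟨a, rfl⟩; exact hz a)
      (by rintro _ ⟨a, rfl⟩; rw [← map_star]; exact hz _)
  choose a ha had using fun i : Finset (cSpace p) × ℕ =>
    Vale.Agent.P104.R12.exists_ball_approx hbic hs hn
      (fun k => ((i.1.equivFin.symm k : i.1) : cSpace p)) (η := 1 / ((i.2 : ℝ) + 1)) (by positivity)
  let U : Ultrafilter (Finset (cSpace p) × ℕ) := Ultrafilter.of atTop
  obtain ⟨y, hy, -⟩ := Vale.Agent.P078.General.exists_wot_limit U
    (fun i => (a i : H →L[ℂ] H)) (C := 1) fun i => ha i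
  have hyP : y ∈ P := Vale.Agent.P078.General.mem_of_commute_commutant P fun z hz => by
    refine ContinuousLinearMap.ext fun v => ext_inner_right ℂ fun w => ?_
    rw [mul_apply_eq_comp, mul_apply_eq_comp, ← ContinuousLinearMap.adjoint_inner_right z]
    refine tendsto_nhds_unique (hy v (ContinuousLinearMap.adjoint z w))
      ((hy (z v) w).congr fun i => ?_)
    rw [ContinuousLinearMap.adjoint_inner_right, ← mul_apply_eq_comp (a i : H →L[ℂ] H) z,
      ← mul_apply_eq_comp z (a i : H →L[ℂ] H), VonNeumannAlgebra.mem_commutant_iff.1 hz _ (a i).2]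
  refine ⟨⟨y, hyP⟩, ContinuousLinearMap.ext fun v => ext_inner_right ℂ fun w => ?_⟩
  have h1 : Tendsto (fun i => ⟪onSpace hp P hP (a i) v, w⟫_ℂ) (U : Filter _)
      (𝓝 ⟪onSpace hp P hP ⟨y, hyP⟩ v, w⟫_ℂ) := by
    have e : ∀ b : Alg P, ⟪onSpace hp P hP b v, w⟫_ℂ = ⟪(b : H →L[ℂ] H) v, (w : H)⟫_ℂ := fun b => by
      rw [Submodule.coe_inner, onSpace_val, coe_restr_apply, inner_z hp, apply_coe]
    simp only [e]
    exact hy v w
  have h2 : Tendsto (fun i => ⟪onSpace hp P hP (a i) v, w⟫_ℂ) (U : Filter _) (𝓝 ⟪T v, w⟫_ℂ) := by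
    refine Tendsto.inner (𝕜 := ℂ) ?_ tendsto_const_nhds
    refine Tendsto.mono_left (x := atTop) ?_ (Ultrafilter.of_le atTop)
    rw [Metric.tendsto_nhds]
    intro e he
    obtain ⟨m, hm⟩ := exists_nat_one_div_lt he
    rw [eventually_atTop]
    refine ⟨({v}, m), fun i hi => ?_⟩
    have h := had i (i.1.equivFin ⟨v, Finset.singleton_subset_iff.1 hi.1⟩)
    simp only [Equiv.symm_apply_apply] at h
    rw [dist_eq_norm, ← sub_apply]
    refine lt_of_le_of_lt (h.trans ?_) hm
    gcongr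
    exact_mod_cast hi.2
  exact tendsto_nhds_unique h1 h2

/-- Every element of the generated algebra comes from `P`. -/
theorem exists_preimage (hp : IsStarProjection p) {P : VonNeumannAlgebra H}
    (hP : p ∈ P.commutant) (T : Alg (gen (Set.range (onSpace hp P hP)))) :
    ∃ y : Alg P, onSpace hp P hP y = (T : cSpace p →L[ℂ] cSpace p) := by
  have key : ∀ R : cSpace p →L[ℂ] cSpace p, R ∈ gen (Set.range (onSpace hp P hP)) → IsSelfAdjoint R →
      ∃ y : Alg P, onSpace hp P hP y = R := by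
    intro R hR hs
    set c : ℝ := 2 * ‖R‖ + 1
    have hc : 0 < c := by positivity
    obtain ⟨y, hy⟩ := exists_preimage_sa hp hP (T := ((c⁻¹ : ℝ) : ℂ) • R)
      ((gen (Set.range (onSpace hp P hP))).toStarSubalgebra.smul_mem hR _) (IsSelfAdjoint.smul (Complex.conj_ofReal _) hs) (by
        refine (ContinuousLinearMap.opNorm_smul_le _ _).trans ?_
        rw [Complex.norm_real, Real.norm_of_nonneg (by positivity), inv_mul_le_iff₀ hc]
        simp only [c]
        linarith)
    refine ⟨(c : ℂ) • y, ?_⟩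
    rw [map_smul, hy, smul_smul, ← Complex.ofReal_mul, mul_inv_cancel₀ hc.ne', Complex.ofReal_one,
      one_smul]
  set X := (T : cSpace p →L[ℂ] cSpace p)
  have him : IsSelfAdjoint ((-Complex.I / 2) • (X - star X)) := by
    rw [IsSelfAdjoint, star_smul, star_sub, star_star, ← neg_sub X (star X), smul_neg, ← neg_smul,
      Complex.star_def]
    congr 1
    rw [map_div₀, map_neg, Complex.conj_I, map_ofNat]
    ring
  obtain ⟨y₁, h₁⟩ := key ((2 : ℂ)⁻¹ • (X + star X))
    ((gen (Set.range (onSpace hp P hP))).toStarSubalgebra.smul_mem (add_mem T.2 (star_mem T.2)) _)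
    (IsSelfAdjoint.smul (by simp) (IsSelfAdjoint.add_star_self X))
  obtain ⟨y₂, h₂⟩ := key ((-Complex.I / 2) • (X - star X))
    ((gen (Set.range (onSpace hp P hP))).toStarSubalgebra.smul_mem (sub_mem T.2 (star_mem T.2)) _) him
  refine ⟨y₁ + Complex.I • y₂, ?_⟩
  rw [map_add, map_smul, h₁, h₂, smul_smul, show Complex.I * (-Complex.I / 2) = (2 : ℂ)⁻¹ by
    linear_combination (-(2 : ℂ)⁻¹) * Complex.I_mul_I]
  module

theorem exists_lift {P Q : VonNeumannAlgebra H} {e : ℝ} (hPQ : BallNear P Q e) (a : Alg P) :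
    ∃ b : Alg Q, ‖(a : H →L[ℂ] H) - b‖ ≤ e * ‖a‖ := by
  obtain ⟨y, hy, -, hd⟩ := Linear.exists_near_of_ball hPQ a.2
  exact ⟨⟨y, hy⟩, hd⟩

theorem restr_sub (hp : IsStarProjection p) (x y : H →L[ℂ] H) :
    restr hp x - restr hp y = restr hp (x - y) := by
  rw [eq_comm, eq_sub_iff_add_eq, ← restr_add, sub_add_cancel]

theorem norm_onSpace (hp : IsStarProjection p) {P : VonNeumannAlgebra H} (hP : p ∈ P.commutant)
    (hinj : Function.Injective (onSpace hp P hP)) (a : Alg P) : ‖onSpace hp P hP a‖ = ‖a‖ :=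
  NonUnitalStarAlgHom.norm_map (onSpace hp P hP) hinj a

theorem norm_onSpace_sub_le (hp : IsStarProjection p) {P Q : VonNeumannAlgebra H}
    (hP : p ∈ P.commutant) (hQ : p ∈ Q.commutant) (a : Alg P) (b : Alg Q) :
    ‖onSpace hp P hP a - onSpace hp Q hQ b‖ ≤ ‖(a : H →L[ℂ] H) - b‖ := by
  rw [onSpace_val, onSpace_val, restr_sub]
  exact norm_restr_le hp _

/-- Injectivity passes to a near algebra. -/
theorem injective_onSpace_of_near (hp : IsStarProjection p) {P Q : VonNeumannAlgebra H}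
    (hP : p ∈ P.commutant) (hQ : p ∈ Q.commutant) (hinj : Function.Injective (onSpace hp P hP))
    {e : ℝ} (he : e ≤ 1 / 4) (hn : BallNear Q P e) : Function.Injective (onSpace hp Q hQ) := by
  refine (injective_iff_map_eq_zero _).2 fun y hy => ?_
  obtain ⟨x, hx⟩ := exists_lift hn y
  have h3 : ‖x‖ ≤ e * ‖y‖ := by
    have h4 := (norm_onSpace_sub_le hp hQ hP y x).trans hx
    rw [hy] at h4
    rw [← norm_onSpace hp hP hinj x]
    rw [zero_sub, ContinuousLinearMap.opNorm_neg] at h4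
    exact h4
  have h4 : ‖y‖ ≤ ‖x‖ + e * ‖y‖ := by
    have h5 := norm_le_norm_add_norm_sub (x : H →L[ℂ] H) (y : H →L[ℂ] H)
    rw [norm_sub_rev] at h5
    exact h5.trans (add_le_add le_rfl hx)
  have h5 : ‖y‖ ≤ 0 := by
    have := mul_le_mul_of_nonneg_right he (norm_nonneg y)
    linarith [norm_nonneg y]
  exact norm_le_zero_iff.1 h5

/-- The generated algebras on a common reducing space are near. -/
theorem ballNear_gen_onSpace (hp : IsStarProjection p) {P Q : VonNeumannAlgebra H}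
    (hP : p ∈ P.commutant) (hQ : p ∈ Q.commutant) {e : ℝ} (he : 0 ≤ e) (hn : BallNear P Q e) :
    BallNear (gen (Set.range (onSpace hp P hP))) (gen (Set.range (onSpace hp Q hQ))) (8 * e) := by
  intro X hX hX1
  obtain ⟨Y, hY, hY1, hd⟩ := exists_near_gen (onSpace hp P hP)
    (gen (Set.range (onSpace hp Q hQ))) (c := 4 * e) (by positivity) (fun a ha => by
      obtain ⟨b, hb⟩ := exists_lift hn a
      refine ⟨onSpace hp Q hQ b, subset_gen ⟨b, rfl⟩,
        ((norm_onSpace_sub_le hp hP hQ a b).trans hb).trans ?_⟩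
      rw [mul_comm 4 e]
      exact mul_le_mul_of_nonneg_left ha he) hX hX1
  exact ⟨Y, hY, hY1, hd.trans_eq (by ring)⟩

/-- The linear map on the reducing space gives it on the whole space. -/
theorem nearLinear_of_onSpace (hp : IsStarProjection p) {P Q : VonNeumannAlgebra H}
    (hP : p ∈ P.commutant) (hQ : p ∈ Q.commutant) (hinjP : Function.Injective (onSpace hp P hP))
    (hinjQ : Function.Injective (onSpace hp Q hQ)) {c e : ℝ} (hn : BallNear P Q e)
    (hL : NearLinear (gen (Set.range (onSpace hp P hP))) (gen (Set.range (onSpace hp Q hQ))) c) :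
    NearLinear P Q (c + 2 * e) := by
  obtain ⟨L, hL⟩ := hL
  choose Y hY using fun T : Alg (gen (Set.range (onSpace hp Q hQ))) => exists_preimage hp hQ T
  let res : Alg P →ₗ[ℂ] Alg (gen (Set.range (onSpace hp P hP))) :=
    { toFun := fun a => ⟨onSpace hp P hP a, subset_gen ⟨a, rfl⟩⟩
      map_add' := fun a b => Subtype.ext (map_add (onSpace hp P hP) a b)
      map_smul' := fun c a => Subtype.ext (map_smul (onSpace hp P hP) c a) }
  let back : Alg (gen (Set.range (onSpace hp Q hQ))) →ₗ[ℂ] Alg Q :=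
    { toFun := Y
      map_add' := fun S T => hinjQ ((hY _).trans (by rw [map_add, hY, hY]; rfl))
      map_smul' := fun c T => hinjQ ((hY _).trans (by rw [map_smul, hY]; rfl)) }
  refine ⟨back.comp (L.comp res), fun x => ?_⟩
  obtain ⟨y₀, hy₀⟩ := exists_lift hn x
  have hres : ‖res x‖ = ‖x‖ := norm_onSpace hp hP hinjP x
  have h5 : ‖Y (L (res x)) - y₀‖ ≤ c * ‖x‖ + e * ‖x‖ := by
    rw [← norm_onSpace hp hQ hinjQ (Y (L (res x)) - y₀), map_sub, hY]
    refine (norm_sub_le_norm_sub_add_norm_sub _ (onSpace hp P hP x) _).trans ?_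
    exact add_le_add ((hL (res x)).trans_eq (by rw [hres]))
      ((norm_onSpace_sub_le hp hP hQ x y₀).trans hy₀)
  show ‖(Y (L (res x)) : H →L[ℂ] H) - (x : H →L[ℂ] H)‖ ≤ _
  refine (norm_sub_le_norm_sub_add_norm_sub _ (y₀ : H →L[ℂ] H) _).trans ?_
  rw [norm_sub_rev (y₀ : H →L[ℂ] H)]
  exact (add_le_add h5 hy₀).trans_eq (by ring)

/-- A linear map into a conjugate gives one into the algebra. -/
theorem nearLinear_of_conj {M N : VonNeumannAlgebra H} {u : H →L[ℂ] H}
    (hu : u ∈ unitary (H →L[ℂ] H)) {c d : ℝ} (hu1 : ‖u - 1‖ ≤ d)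
    (hL : NearLinear M (Vale.Agent.P096.Reduce.conjAlg u N) c) :
    NearLinear M N (c + 2 * d) := by
  obtain ⟨L, hL⟩ := hL
  let back : Alg (Vale.Agent.P096.Reduce.conjAlg u N) →ₗ[ℂ] Alg N :=
    { toFun := fun T => ⟨star u * (T : H →L[ℂ] H) * u,
        Vale.Agent.P096.Reduce.of_mem_conjAlg hu T.2⟩
      map_add' := fun S T => Subtype.ext <| by
        show star u * ((S : H →L[ℂ] H) + (T : H →L[ℂ] H)) * u = _
        rw [mul_add, add_mul]
        rfl
      map_smul' := fun c T => Subtype.ext <| by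
        show star u * (c • (T : H →L[ℂ] H)) * u = _
        rw [mul_smul_comm, smul_mul_assoc]
        rfl }
  refine ⟨back.comp L, fun x => ?_⟩
  set y := (L x : H →L[ℂ] H)
  have hu' : ‖star u - 1‖ ≤ d := by rwa [← star_one, ← star_sub, norm_star]
  have h7 := Vale.Agent.P096.Reduce.norm_conj_sub_le (Unitary.star_mem hu) hu' (x : H →L[ℂ] H)
  rw [star_star] at h7
  have h8 := Vale.Agent.P096.Reduce.norm_conj_le (Unitary.star_mem hu) (y - (x : H →L[ℂ] H))
  rw [star_star] at h8
  show ‖star u * y * u - (x : H →L[ℂ] H)‖ ≤ _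
  have e2 : star u * y * u - (x : H →L[ℂ] H) =
      star u * (y - x) * u + (star u * (x : H →L[ℂ] H) * u - x) := by
    rw [mul_sub, sub_mul]; abel
  rw [e2]
  refine (norm_add_le _ _).trans ((add_le_add (h8.trans (hL x)) h7).trans_eq ?_)
  rw [add_mul]
  rfl

/-- A separating vector becomes cyclic and separating on its cyclic space. -/
theorem isCS_onSpace (hp : IsStarProjection p) {P : VonNeumannAlgebra H} (hP : p ∈ P.commutant)
    {ξ : H} (hξp : p ξ = ξ) (hξ : ‖ξ‖ = 1) (hinv : ∀ x ∈ P, p (x ξ) = x ξ)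
    (hdense : ∀ v, p v = v → ∀ r : ℝ, 0 < r → ∃ x ∈ P, ‖x ξ - v‖ ≤ r)
    (hsep : ∀ x ∈ P, x ξ = 0 → x = 0) :
    Vale.Agent.P132.IsCS (gen (Set.range (onSpace hp P hP)))
      (⟨ξ, mem_cSpace.2 hξp⟩ : cSpace p) := by
  have hval : ∀ x : Alg P, ((onSpace hp P hP x ⟨ξ, mem_cSpace.2 hξp⟩ : cSpace p) : H) =
      (x : H →L[ℂ] H) ξ := fun x => hinv _ x.2
  refine ⟨hξ, fun v r hr => ?_, fun T hT hT0 => ?_⟩
  · obtain ⟨x, hx, hd⟩ := hdense v (mem_cSpace.1 v.2) r hr
    refine ⟨onSpace hp P hP ⟨x, hx⟩, subset_gen ⟨_, rfl⟩, ?_⟩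
    show ‖((onSpace hp P hP ⟨x, hx⟩ ⟨ξ, _⟩ : cSpace p) : H) - (v : H)‖ ≤ r
    rw [hval]
    exact hd
  · obtain ⟨x, hx⟩ := exists_preimage hp hP ⟨T, hT⟩
    have h3 : (x : H →L[ℂ] H) ξ = 0 := by
      rw [← hval, hx, hT0]; rfl
    rw [← show onSpace hp P hP x = T from hx,
      show x = 0 from Subtype.ext (hsep _ x.2 h3), map_zero]

theorem nearLinear_mono {M N : VonNeumannAlgebra H} {c d : ℝ} (h : NearLinear M N c) (hcd : c ≤ d) :
    NearLinear M N d := by
  obtain ⟨L, hL⟩ := h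
  exact ⟨L, fun x => (hL x).trans (mul_le_mul_of_nonneg_right hcd (norm_nonneg _))⟩

/-- The cut: a separating vector of `M` gives the linear map. -/
theorem nearLinear_of_separating {C ε₀ : ℝ} (hC : 0 ≤ C) (h : CSLinear.{u} C ε₀)
    [TopologicalSpace.SeparableSpace H] {M N : VonNeumannAlgebra H} {ξ : H} (hξ : ‖ξ‖ = 1)
    (hsep : ∀ x ∈ M, x ξ = 0 → x = 0) {K ε : ℝ} (hK : 0 ≤ K) (h0 : 0 < ε)
    (hKε : K * ε ≤ 1 / 150) (h1 : 8 * ((1 + 252 * K) * ε) ≤ ε₀)
    (h2 : (1 + 252 * K) * ε ≤ 1 / 4) (hn : Near M N ε) (hc : Near M.commutant N.commutant (K * ε)) :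
    NearLinear M N ((16 * C + 10) * (1 + 252 * K) * ε) := by
  classical
  let S : Submodule ℂ H :=
    { carrier := (fun x : H →L[ℂ] H => x ξ) '' (M : Set (H →L[ℂ] H))
      zero_mem' := ⟨0, zero_mem M, rfl⟩
      add_mem' := fun {a b} ⟨x, hx, ha⟩ ⟨y, hy, hb⟩ => ⟨x + y, add_mem hx hy, by
        rw [← ha, ← hb]; rfl⟩
      smul_mem' := fun c a ⟨x, hx, ha⟩ => ⟨c • x, M.toStarSubalgebra.smul_mem hx c, by
        rw [← ha]; rfl⟩ }
  set W := S.topologicalClosure
  have : CompleteSpace W := (Submodule.isClosed_topologicalClosure _).completeSpace_coe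
  set q := W.starProjection
  have hq : IsStarProjection q := isStarProjection_starProjection
  have hWinv : ∀ x ∈ M, ∀ v ∈ W, x v ∈ W := fun x hx v hv => by
    have hm : Set.MapsTo x (S : Set H) (S : Set H) := by
      rintro w ⟨y, hy, rfl⟩
      exact ⟨x * y, mul_mem hx hy, rfl⟩
    exact hm.closure x.continuous hv
  have hqM : q ∈ M.commutant := VonNeumannAlgebra.mem_commutant_iff.2 fun x hx =>
    ((Vale.Agent.P078.General.commute_starProjection (hWinv x hx)
      (hWinv _ (star_mem hx))).eq).symm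
  obtain ⟨x₀, hx₀, -, hx₀q⟩ := hc.1 q hqM hq.norm_le
  obtain ⟨u, hu, hu1, huq⟩ := Vale.Agent.P096.Reduce.exists_conj_proj N.commutant hq hKε
    ⟨x₀, hx₀, by rwa [norm_sub_rev]⟩
  set N₁ := Vale.Agent.P096.Reduce.conjAlg u N with hN₁
  set e := (1 + 252 * K) * ε with he
  have he0 : 0 < e := by positivity
  have hn1 : Near M N₁ e := by
    have h3 := Vale.Agent.P096.Reduce.ballNear_conj hu hu1 (⟨hn.2, hn.1⟩ : Near N M ε)
    rw [show ε + 2 * (126 * (K * ε)) = e by rw [he]; ring] at h3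
    exact ⟨h3.2, h3.1⟩
  have hqN : q ∈ N₁.commutant := VonNeumannAlgebra.mem_commutant_iff.2 fun T hT => by
    have h3 := VonNeumannAlgebra.mem_commutant_iff.1 huq _
      (Vale.Agent.P096.Reduce.of_mem_conjAlg hu hT)
    have hu2 := Unitary.mul_star_self_of_mem hu
    have hu2' : ∀ Z : H →L[ℂ] H, u * (star u * Z) = Z := fun Z => by
      rw [← mul_assoc, hu2, one_mul]
    have h4 := congrArg (fun Z => u * Z * star u) h3
    simp only [mul_assoc, hu2', hu2, mul_one] at h4
    exact h4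
  have hξW : ξ ∈ W := subset_closure ⟨1, one_mem M, rfl⟩
  have hξq : q ξ = ξ := Submodule.starProjection_eq_self_iff.2 hξW
  have hinv : ∀ x ∈ M, q (x ξ) = x ξ := fun x hx =>
    Submodule.starProjection_eq_self_iff.2 (hWinv _ hx _ hξW)
  have hinjM : Function.Injective (onSpace hq M hqM) :=
    (injective_iff_map_eq_zero _).2 fun x hx => Subtype.ext <| hsep _ x.2 <| by
      rw [← hinv _ x.2]
      exact congrArg Subtype.val (congrArg (fun T => T (⟨ξ, mem_cSpace.2 hξq⟩ : cSpace q)) hx)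
  have hinjN := injective_onSpace_of_near hq hqM hqN hinjM h2 hn1.2
  have hsepK : TopologicalSpace.SeparableSpace (cSpace q) :=
    (TopologicalSpace.IsSeparable.of_separableSpace (cSpace q : Set H)).separableSpace
  have hCS := isCS_onSpace hq hqM hξq hξ hinv (fun v hv r hr => by
    obtain ⟨_, ⟨x, hx, rfl⟩, hd⟩ := Metric.mem_closure_iff.1
      (show v ∈ closure (S : Set H) from Submodule.starProjection_eq_self_iff.1 hv) r hr
    refine ⟨x, hx, ?_⟩
    rw [← dist_eq_norm, dist_comm]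
    exact hd.le) hsep
  have hL := h (cSpace q) _ _ _ hCS (8 * e) (by positivity) h1
    ⟨ballNear_gen_onSpace hq hqM hqN he0.le hn1.1, ballNear_gen_onSpace hq hqN hqM he0.le hn1.2⟩
  refine nearLinear_mono (nearLinear_of_conj hu hu1
    (nearLinear_of_onSpace hq hqM hqN hinjM hinjN hn1.1 hL)) ?_
  rw [mul_assoc (16 * C + 10), ← he]
  have h9 : 2 * (126 * (K * ε)) ≤ e := by rw [he]; linarith
  nlinarith

/-- Algebras at distance zero: the inclusion. -/
theorem nearLinear_zero {M N : VonNeumannAlgebra H} (hn : BallNear M N 0) : NearLinear M N 0 := by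
  have hmem : ∀ x : Alg M, (x : H →L[ℂ] H) ∈ N := fun x => by
    obtain ⟨y, hy, -, hd⟩ := Linear.exists_near_of_ball hn x.2
    rw [zero_mul, norm_le_zero_iff, sub_eq_zero] at hd
    rwa [hd]
  refine ⟨{ toFun := fun x => ⟨x, hmem x⟩
            map_add' := fun _ _ => rfl
            map_smul' := fun _ _ => rfl }, fun x => ?_⟩
  show ‖(x : H →L[ℂ] H) - (x : H →L[ℂ] H)‖ ≤ _
  rw [sub_self, norm_zero, zero_mul]

omit [CompleteSpace H] in
/-- The amplified space is separable. -/
theorem separableSpace_seq [TopologicalSpace.SeparableSpace H] :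
    TopologicalSpace.SeparableSpace (Seq H) := by
  classical
  set D : Set (Seq H) := ⋃ n : ℕ, Set.range (fun v : H => (lp.single 2 n v : Seq H))
  have hD : TopologicalSpace.IsSeparable D :=
    TopologicalSpace.IsSeparable.iUnion fun n =>
      TopologicalSpace.isSeparable_range
        (lp.singleContinuousLinearMap ℂ (fun _ : ℕ => H) 2 n).continuous
  rw [← TopologicalSpace.isSeparable_univ_iff]
  refine ((hD.span (R := ℂ)).closure).mono fun v _ => ?_
  refine mem_closure_of_tendsto (lp.hasSum_single (by norm_num) v) (Eventually.of_forall fun t => ?_)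
  exact sum_mem fun n _ => Submodule.subset_span (Set.mem_iUnion.2 ⟨n, ⟨v n, rfl⟩⟩)

/-- The linear map on separable spaces, from the case of a cyclic separating vector. -/
theorem sepLinear_of_cs {C ε₀ : ℝ} (hC : 0 ≤ C) (hε₀ : 0 < ε₀) (h : CSLinear.{u} C ε₀) :
    ∃ C' ε₁ : ℝ, 0 ≤ C' ∧ 0 < ε₁ ∧ SepLinear.{u} C' ε₁ := by
  obtain ⟨K, hK, hcom⟩ := Linear.exists_near_commutant.{u}
  refine ⟨(16 * C + 10) * (1 + 252 * K),
    min (1 / (150 * (K + 1))) (min (ε₀ / (8 * (1 + 252 * K))) (1 / (4 * (1 + 252 * K)))),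
    by positivity, by positivity, fun H _ _ _ hS M N ε h0 h1 hn => ?_⟩
  rcases subsingleton_or_nontrivial H with hH | hH
  · refine ⟨0, fun x => ?_⟩
    have h3 : ((0 : Alg M →ₗ[ℂ] Alg N) x : H →L[ℂ] H) - (x : H →L[ℂ] H) = 0 :=
      ContinuousLinearMap.ext fun v => Subsingleton.elim _ _
    rw [h3, norm_zero]
    positivity
  have := separableSpace_seq (H := H)
  set s := TopologicalSpace.denseSeq H
  set c : ℕ → ℂ := fun k => (((1 / 2 : ℝ) ^ k * (‖s k‖ + 1)⁻¹ : ℝ) : ℂ) with hc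
  have hcn : ∀ k, ‖c k • s k‖ ≤ (1 / 2 : ℝ) ^ k := fun k => by
    rw [hc, norm_smul, Complex.norm_real, Real.norm_of_nonneg (by positivity), mul_assoc]
    refine mul_le_of_le_one_right (by positivity) ?_
    rw [inv_mul_le_iff₀ (by positivity), mul_one]
    linarith
  have hmem : Memℓp (fun k => c k • s k) 2 := by
    refine memℓp_gen ?_
    refine Summable.of_nonneg_of_le (fun k => by positivity) (fun k => ?_)
      ((summable_geometric_of_lt_one (by norm_num) (by norm_num : (1 / 4 : ℝ) < 1)))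
    rw [show ((2 : ENNReal)).toReal = ((2 : ℕ) : ℝ) by norm_num, Real.rpow_natCast,
      show (1 / 4 : ℝ) ^ k = ((1 / 2 : ℝ) ^ k) ^ 2 by rw [← pow_mul, mul_comm, pow_mul]; norm_num]
    exact pow_le_pow_left₀ (norm_nonneg _) (hcn k) 2
  set v : Seq H := ⟨fun k => c k • s k, hmem⟩ with hv
  have hsep : ∀ x : H →L[ℂ] H, amp x v = 0 → x = 0 := by
    intro x hx
    have h3 : ∀ k, x (s k) = 0 := fun k => by
      have h4 := congrArg (fun w : Seq H => w k) hx
      change x (c k • s k) = 0 at h4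
      rw [map_smul, smul_eq_zero] at h4
      refine h4.resolve_left ?_
      simp only [hc, Complex.ofReal_eq_zero]
      positivity
    refine ContinuousLinearMap.ext fun w => ?_
    rw [zero_apply]
    exact congrFun (Continuous.ext_on (TopologicalSpace.denseRange_denseSeq H) x.continuous
      continuous_const (by rintro _ ⟨k, rfl⟩; exact h3 k)) w
  have hv0 : v ≠ 0 := fun h0' => by
    have h3 : (1 : H →L[ℂ] H) = 0 := hsep 1 (by
      refine lp.ext (funext fun k => ?_)
      show (1 : H →L[ℂ] H) (v k) = _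
      rw [one_apply_eq_self, h0'])
    exact one_ne_zero h3
  set ξ : Seq H := ((‖v‖⁻¹ : ℝ) : ℂ) • v
  have hξ : ‖ξ‖ = 1 := by
    rw [norm_smul, Complex.norm_real, norm_inv, norm_norm, inv_mul_cancel₀ (norm_ne_zero_iff.2 hv0)]
  have hb : 150 * (K + 1) * ε ≤ 1 := by
    have h3 := h1.trans (min_le_left _ _)
    rw [le_div_iff₀ (by positivity)] at h3
    linarith
  have hb2 : 8 * ((1 + 252 * K) * ε) ≤ ε₀ := by
    have h3 := (h1.trans (min_le_right _ _)).trans (min_le_left _ _)
    rw [le_div_iff₀ (by positivity)] at h3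
    linarith
  have hb3 : (1 + 252 * K) * ε ≤ 1 / 4 := by
    have h3 := (h1.trans (min_le_right _ _)).trans (min_le_right _ _)
    rw [le_div_iff₀ (by positivity)] at h3
    linarith
  have hnA : Near (ampAlg M) (ampAlg N) ε :=
    ⟨Vale.Agent.P096.Reduce.ballNear_amp hn.1, Vale.Agent.P096.Reduce.ballNear_amp hn.2⟩
  rcases h0.eq_or_lt with h00 | h0'
  · exact nearLinear_mono (nearLinear_zero (h00 ▸ hn.1)) (by positivity)
  refine Vale.Agent.P096.Reduce.nearLinear_of_amp
    (nearLinear_of_separating (ξ := ξ) hC h hξ (fun X hX hX0 => ?_) hK h0'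
      (by nlinarith) hb2 hb3 hnA (hcom _ _ _ ε h0 hnA))
  obtain ⟨x, -, rfl⟩ := mem_ampAlg.1 hX
  rw [map_smul, smul_eq_zero] at hX0
  have h3 : amp x v = 0 := hX0.resolve_left (by
    simp only [Complex.ofReal_eq_zero]
    exact inv_ne_zero (norm_ne_zero_iff.2 hv0))
  rw [hsep x h3]
  exact map_zero (ampHom H)

/-- The reduction: a cyclic separating vector for `M` on a separable space suffices. -/
theorem nearLinear_of_cs {C ε₀ : ℝ} (hC : 0 ≤ C) (hε₀ : 0 < ε₀) (h : CSLinear.{u} C ε₀) :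
    ∃ C' ε₁ : ℝ, 0 ≤ C' ∧ 0 < ε₁ ∧
      ∀ (H : Type u) [NormedAddCommGroup H] [InnerProductSpace ℂ H] [CompleteSpace H]
        (M N : VonNeumannAlgebra H) (ε : ℝ), 0 ≤ ε → ε ≤ ε₁ → Near M N ε →
          NearLinear M N (C' * ε) := by
  obtain ⟨C', ε₁, hC', hε₁, hs⟩ := sepLinear_of_cs hC hε₀ h
  exact ⟨10 * C', ε₁ / 10, by positivity, by positivity, fun H _ _ _ M N ε h0 h1 hn =>
    nearLinear_of_separable hC' hs h0 (by linarith) hn⟩

end Vale.Agent.P096.III.Reduce
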