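import Vale.Agent.P096.III.Reduce.Cut
import Vale.Agent.P096.III.Iface
import Vale.Agent.P096.Full.Top

/-!
# P096: from the standard separable case to all pairs, and to the conjecture
-/

namespace Vale.Agent.P096.III.Reduce

open Vale.Agent.P082 (Alg)

universe u

/-- The standard case is the case of a cyclic separating vector. -/
theorem csLinear_of_std (h : Iface.StmtStd.{u}) :
    ∃ C ε₀ : ℝ, 0 ≤ C ∧ 0 < ε₀ ∧ CSLinear.{u} C ε₀ := by
  obtain ⟨C, ε₀, hC, hε₀, hstd⟩ := h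
  exact ⟨C, ε₀, hC, hε₀, fun H _ _ _ _ M N Ω hcs ε h0 h1 hn => hstd H M N Ω ε hcs h0 h1 hn⟩

/-- The standard separable case gives all pairs. -/
theorem stmtAll_of (h : Iface.StmtStd.{u}) : Iface.StmtAll.{u} := by
  obtain ⟨C, ε₀, hC, hε₀, hcs⟩ := csLinear_of_std h
  obtain ⟨C', ε₁, hC', hε₁, hall⟩ := nearLinear_of_cs hC hε₀ hcs
  exact ⟨C', ε₁, hC', hε₁, fun H _ _ _ M N ε h0 h1 hn => hall H M N ε h0.le h1 hn⟩

/-- All pairs give the separable pairs, the distance zero included. -/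
theorem sepLinear_of_all (h : Iface.StmtAll.{u}) :
    ∃ C ε₀ : ℝ, 0 ≤ C ∧ 0 < ε₀ ∧ SepLinear.{u} C ε₀ := by
  obtain ⟨C, ε₀, hC, hε₀, hall⟩ := h
  refine ⟨C, ε₀, hC, hε₀, fun H _ _ _ _ M N ε h0 h1 hn => ?_⟩
  rcases h0.eq_or_lt with h00 | h0'
  · exact nearLinear_mono (nearLinear_zero (h00 ▸ hn.1)) (by positivity)
  · exact hall H M N ε h0' h1 hn

/-- The conjecture from all pairs. -/
theorem strongKK_of (h : Iface.StmtAll.{u}) :
    ∀ ε : ℝ, 0 < ε → ∃ δ : ℝ, 0 < δ ∧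
      ∀ (H : Type u) [NormedAddCommGroup H] [InnerProductSpace ℂ H] [CompleteSpace H]
        (M N : VonNeumannAlgebra H), Full.kkDist M N < δ → Full.ConjugateNearOne ε M N :=
  Full.strong_of_sepLinear (sepLinear_of_all h)

/-- The conjecture from the standard separable case. -/
theorem strongKK_of_std (h : Iface.StmtStd.{u}) :
    ∀ ε : ℝ, 0 < ε → ∃ δ : ℝ, 0 < δ ∧
      ∀ (H : Type u) [NormedAddCommGroup H] [InnerProductSpace ℂ H] [CompleteSpace H]
        (M N : VonNeumannAlgebra H), Full.kkDist M N < δ → Full.ConjugateNearOne ε M N :=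
  strongKK_of (stmtAll_of h)

end Vale.Agent.P096.III.Reduce
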